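import Vale.Agent.P011Z.FF.Loc
import Vale.Agent.P011Z.FF.Simple
import Vale.Agent.P011.H698.Rem

/-!
The local structure of a unitary group, from a model.
-/

open Module Matrix Topology

namespace Vale.Agent.P011Z.FF

open Vale.Agent.P011 Vale.Agent.P011.H738 Vale.Agent.P011.H271 Vale.Agent.P011.H698
  Vale.Agent.P011.H961 Vale.Agent.P011.H74

section top

variable {k F A E ι : Type} [Field k] [NontriviallyNormedField F] [ProperSpace F] [Algebra k F]
  [Ring A] [StarRing A] [Algebra k A] [Ring E] [StarRing E] [TopologicalSpace E]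
  [IsTopologicalRing E] [Algebra F E] [Fintype ι] [DecidableEq ι]

/-- Bounded sets of unitary elements are compact. -/
theorem isCompact_UA (H : BCR k F A E ι) {V : Type} [NormedAddCommGroup V] [NormedSpace F V]
    (P : E ≃ₗ[F] V) {S : Set V} (hS : IsCompact S) :
    IsCompact {u : UA E | P ((u : Eˣ) : E) ∈ S} := by
  have := H.continuousStar
  have := H.t2
  have h1 : IsClosedEmbedding fun u : UA E => ((u : Eˣ) : E) := by
    refine ⟨⟨inducing_UA E, fun u w h => Subtype.ext (Units.ext h)⟩, ?_⟩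
    have e : (Set.range fun u : UA E => ((u : Eˣ) : E)) =
        {x | x * star x = 1} ∩ {x | star x * x = 1} := by
      ext x
      constructor
      · rintro ⟨u, rfl⟩
        exact ⟨ua_mul_star u, ua_star_mul u⟩
      · rintro ⟨h1, h2⟩
        exact ⟨⟨⟨x, star x, h1, h2⟩, h1⟩, rfl⟩
    rw [e]
    exact (isClosed_eq (by fun_prop) continuous_const).inter
      (isClosed_eq (by fun_prop) continuous_const)
  let Q : (ι → F) ≃L[F] V := (H.φ.toLinearEquiv.symm.trans P).toContinuousLinearEquiv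
  have h2 := ((H.φ.trans Q).toHomeomorph.isClosedEmbedding.comp h1).isCompact_preimage hS
  refine (congrArg IsCompact (Set.ext fun u => ?_)).mp h2
  have e : Q (H.φ ((u : Eˣ) : E)) = P ((u : Eˣ) : E) := congrArg P (H.φ.symm_apply_apply _)
  exact iff_of_eq (congrArg (· ∈ S) e)

theorem loc_of_bij (H : BCR k F A E ι) {R κ : Type} [Ring R] [Algebra F R] [IsSimpleRing R]
    [Fintype κ] (b : Basis κ F R) (p : E →+* R) (hp : ∀ (c : F) (x : E), p (c • x) = c • p x)
    (hbij : Function.Bijective fun x : E => (p x, p (star x))) :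
    ∃ E' : Subgroup (UA E), (∀ M : Subgroup (UA E), (∀ e ∈ E', ∀ x ∈ M, e * x * e⁻¹ ∈ M) →
      (∃ x ∈ M, x ∈ nzU E) → E' ≤ M) ∧ ∃ C : Set (UA E), IsCompact C ∧
      ∀ u : UA E, Algebra.norm F (p ((u : Eˣ) : E)) = 1 → ∃ e ∈ E', e⁻¹ * u ∈ C := by
  have hinj : ∀ x y : E, p x = p y → p (star x) = p (star y) → x = y := fun x y h1 h2 =>
    hbij.1 (Prod.ext h1 h2)
  let π : UA E →* Rˣ := (Units.map (p : E →* R)).comp (UA E).subtype
  have hπc : ∀ x : UA E, ((π x : Rˣ) : R) = p ((x : Eˣ) : E) := fun _ => rfl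
  have hπi : ∀ x : UA E, (((π x)⁻¹ : Rˣ) : R) = p (star ((x : Eˣ) : E)) := fun x => by
    rw [← map_inv, hπc, ua_inv]
  have hsurj : Function.Surjective π := by
    intro r
    obtain ⟨x, hx⟩ := hbij.2 ((r : R), ((r⁻¹ : Rˣ) : R))
    have hx1 : p x = r := congrArg Prod.fst hx
    have hx2 : p (star x) = ((r⁻¹ : Rˣ) : R) := congrArg Prod.snd hx
    have h1 : x * star x = 1 := hinj _ _ (by rw [map_mul, hx1, hx2, map_one, Units.mul_inv])
      (by rw [star_mul, star_star, map_mul, hx1, hx2, star_one, map_one, Units.mul_inv])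
    have h2 : star x * x = 1 := hinj _ _ (by rw [map_mul, hx1, hx2, map_one, Units.inv_mul])
      (by rw [star_mul, star_star, map_mul, hx1, hx2, star_one, map_one, Units.inv_mul])
    exact ⟨⟨⟨x, star x, h1, h2⟩, h1⟩, Units.ext hx1⟩
  have hπinj : Function.Injective π := fun x y h => Subtype.ext (Units.ext
    (hinj _ _ (by rw [← hπc, ← hπc, h]) (by rw [← hπi, ← hπi, h])))
  obtain ⟨E₀, h1, c, h2⟩ := loc_simple b
  let pl : E →ₗ[F] R := ⟨p, hp⟩
  let P : E ≃ₗ[F] (κ → F) × (κ → F) :=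
    (LinearEquiv.ofBijective (pl.prod (pl.comp H.starL)) hbij).trans
      (b.equivFun.prodCongr b.equivFun)
  refine ⟨E₀.comap π, fun M hM hx e he => ?_, _, isCompact_UA H P
    ((isCompact_univ_pi fun _ => isCompact_closedBall (0 : F) c).prod
      (isCompact_univ_pi fun _ => isCompact_closedBall (0 : F) c)), fun u hu => ?_⟩
  · obtain ⟨m, hm, h3⟩ := h1 (M.map π) (by
      rintro e he _ ⟨x, hx, rfl⟩
      obtain ⟨y, rfl⟩ := hsurj e
      rw [← map_inv, ← map_mul, ← map_mul]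
      exact ⟨_, hM y he x hx, rfl⟩) (by
      obtain ⟨x, hx, y, hy⟩ := hx
      by_contra hcon
      simp only [not_exists, not_and, not_not, ne_eq] at hcon
      refine hy (hinj _ _ ?_ ?_)
      · rw [map_mul, map_mul, ← hπc]
        exact hcon (π x) ⟨x, hx, rfl⟩ _
      · rw [star_mul, star_mul, map_mul, map_mul, ← hπi]
        exact (hcon (π x)⁻¹ ((M.map π).inv_mem ⟨x, hx, rfl⟩) _).symm) he
    rwa [← hπinj h3]
  · obtain ⟨e, he, h3⟩ := h2 (π u) hu
    obtain ⟨y, rfl⟩ := hsurj e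
    rw [← map_inv, ← map_mul] at h3
    refine ⟨y, he, fun i _ => mem_closedBall_zero_iff.2 (h3 i).1,
      fun i _ => mem_closedBall_zero_iff.2 ?_⟩
    have h4 := (h3 i).2
    rw [hπi] at h4
    exact h4

end top

theorem loc_of_herm {E : Type} [Ring E] [StarRing E] {n : ℕ} {L : Type} [NormedField L] [StarRing L]
    (p : E →+* Matrix (Fin n) (Fin n) L) (hbij : Function.Bijective p)
    {H : Matrix (Fin n) (Fin n) L} (hdet : H.det ≠ 0)
    (hpH : ∀ x, p (star x) * H = H * (p x)ᴴ) (hloc : LocS (UH H)) :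
    ∃ E' : Subgroup (UA E), (∀ M : Subgroup (UA E), (∀ e ∈ E', ∀ x ∈ M, e * x * e⁻¹ ∈ M) →
      (∃ x ∈ M, x ∈ nzU E) → E' ≤ M) ∧ ∀ u : UA E, (p ((u : Eˣ) : E)).det = 1 → u ∈ E' := by
  let π : UA E →* (Matrix (Fin n) (Fin n) L)ˣ :=
    (Units.map (p : E →* Matrix (Fin n) (Fin n) L)).comp (UA E).subtype
  have hπc : ∀ x : UA E, ((π x : (Matrix (Fin n) (Fin n) L)ˣ) : Matrix (Fin n) (Fin n) L) =
    p ((x : Eˣ) : E) := fun _ => rfl
  have hHu : IsUnit H := (Matrix.isUnit_iff_isUnit_det H).mpr (isUnit_iff_ne_zero.mpr hdet)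
  have hmem : ∀ x : UA E, π x ∈ UH H := fun x => by
    rw [mem_UH, hπc, mul_assoc, ← hpH, ← mul_assoc, ← map_mul, ua_mul_star, map_one, one_mul]
  have hπinj : Function.Injective π := fun x y h =>
    Subtype.ext (Units.ext (hbij.1 (by rw [← hπc, ← hπc, h])))
  have hsurj : ∀ T ∈ UH H, ∃ x : UA E, π x = T := by
    intro T hT
    obtain ⟨x, hx⟩ := hbij.2 (T : Matrix (Fin n) (Fin n) L)
    have h1 : x * star x = 1 := by
      apply hbij.1
      obtain ⟨Hu, rfl⟩ := hHu
      rw [← Units.mul_left_inj Hu, map_mul, mul_assoc, hpH, hx, ← mul_assoc, map_one, one_mul]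
      exact hT
    have h2 : star x * x = 1 := by
      apply hbij.1
      have h3 : (p x) * (p (star x)) = 1 := by rw [← map_mul, h1, map_one]
      rw [map_mul, map_one]
      exact mul_eq_one_comm.mp h3
    exact ⟨⟨⟨x, star x, h1, h2⟩, h1⟩, Units.ext hx⟩
  refine ⟨((Matrix.detMonoidHom.comp (Units.coeHom (Matrix (Fin n) (Fin n) L))).comp π).ker,
    fun M hM hx e he => ?_, fun u hu => hu⟩
  obtain ⟨m, hm, h1⟩ := hloc (M.map π) (by
    rintro _ ⟨x, -, rfl⟩
    exact hmem x) (by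
    rintro e he hd _ ⟨x, hx, rfl⟩
    obtain ⟨y, rfl⟩ := hsurj e he
    rw [← map_inv, ← map_mul, ← map_mul]
    exact ⟨_, hM y hd x hx, rfl⟩) (by
    obtain ⟨x, hx, y, hy⟩ := hx
    refine ⟨π x, ⟨x, hx, rfl⟩, fun c hc => hy (hbij.1 ?_)⟩
    rw [map_mul, map_mul, ← hπc, hc, smul_mul_assoc, mul_smul_comm, one_mul, mul_one])
    (π e) (hmem e) he
  rwa [← hπinj h1]

end Vale.Agent.P011Z.FF
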